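import Vale.Agent.P181.TL.Defs

set_option autoImplicit false

/-!
# P181, BL: a block of long rows and an arbitrary tail, `b ≥ C a`: the literals

The rows `2, .., R + 1` of the partition (`al`, the block) are long, the rows below (`tau`) are
arbitrary; only the gap `λ_(R+1) - λ_(R+2) ≥ a ^ 2 / polylog` is used. A frame of `R` head vectors
turns every monomial in the block rows of the letters (the labels) and every highest weight
polynomial in the lower rows into a highest weight polynomial.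
-/

open MvPolynomial

namespace Vale.Agent.P181.BL

open Vale.Agent.P181.T4 (HW)
open Vale.Agent.P181.H280 (plethMult)
open Vale.Agent.P181.SZ
open Vale.Agent.P181.TL (KK)

/-- The block `al` on top of the rows `tau`. -/
def ap {k : ℕ} (r : ℕ) (al : ℕ → ℕ) (tau : Fin k → ℕ) : Fin (k + r) → ℕ :=
  fun i => if h : (i : ℕ) < r then al i else tau ⟨i - r, by omega⟩

/-- The inclusion of the lower rows. -/
def lo {k : ℕ} (r : ℕ) (i : Fin k) : Fin (k + r) := ⟨i + r, by omega⟩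

/-- The frame specialization: the head `h` becomes the unit vector of row `g h`. -/
noncomputable def fr (n : ℕ) {r : ℕ} {ι η : Type} (g : η → Fin r) :
    MvPolynomial (Fin n × (ι ⊕ η)) ℂ →ₐ[ℂ] MvPolynomial (Fin n × ι) ℂ :=
  aeval fun q => Sum.elim (fun j => X (q.1, j))
    (fun h => if (q.1 : ℕ) = (g h : ℕ) then 1 else 0) q.2

/-- The monomial of the labels. -/
noncomputable def lab (k r : ℕ) {ι : Type} [Fintype ι] (v : Fin r × ι → ℕ) :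
    MvPolynomial (Fin (k + r) × ι) ℂ :=
  ∏ q : Fin r × ι, X (⟨(q.1 : ℕ), by omega⟩, q.2) ^ v q

/-- **(B1)** the border: `r` head vectors, each of degree `tau 0`. -/
def BordR : Prop := ∀ (r k : ℕ) (ι : Type) [Fintype ι] (c : ι → ℕ) (tau : Fin (k + 1) → ℕ),
  ∑ j, c j = ∑ i, tau i →
  ∃ Ψ : KK (k + 1) ι c tau →ₗ[ℂ] MvPolynomial (Fin (k + 1 + r) × (ι ⊕ Fin r)) ℂ,
    (∀ F, Ψ F ∈ HW (k + 1 + r) (ι ⊕ Fin r) (ap r (fun _ => tau 0) tau)) ∧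
    (∀ F v, coeff v (Ψ F) ≠ 0 → ∀ x, ∑ i, v (i, x) = Sum.elim c (fun _ => tau 0) x) ∧
    ∀ F, fr (k + 1 + r) (id : Fin r → Fin r) (Ψ F) =
      rename (fun q : Fin (k + 1) × ι => (lo r q.1, q.2))
        (F : MvPolynomial (Fin (k + 1) × ι) ℂ)

/-- **(B2)** the minors of the top rows. -/
def MinR : Prop := ∀ (n r : ℕ) (σ : Type) [Fintype σ] [DecidableEq σ] (hr : r ≤ n)
  (e : Fin r → σ),
  (Matrix.det (fun i l : Fin r => (X (Fin.castLE hr i, e l) : MvPolynomial (Fin n × σ) ℂ)) ∈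
    HW n σ fun i => if (i : ℕ) < r then 1 else 0) ∧
  ∀ v, coeff v (Matrix.det
      (fun i l : Fin r => (X (Fin.castLE hr i, e l) : MvPolynomial (Fin n × σ) ℂ))) ≠ 0 →
    ∀ x, ∑ i, v (i, x) = (Finset.univ.filter fun l => e l = x).card

/-- The lift of all tails with the labels `v`. -/
def PsiR (k r : ℕ) (ι η : Type) [Fintype ι] [Fintype η] (g : η → Fin r) (c : ι → ℕ)
    (v : Fin r × ι → ℕ) (p : η → ℕ) (al : ℕ → ℕ) (tau : Fin (k + 1) → ℕ) : Prop :=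
  ∃ (m : ℕ) (Ψ : KK (k + 1) ι c tau →ₗ[ℂ] MvPolynomial (Fin (k + 1 + r) × (ι ⊕ η)) ℂ), m ≠ 0 ∧
    (∀ F, Ψ F ∈ HW (k + 1 + r) (ι ⊕ η) (ap r al tau)) ∧
    (∀ F w, coeff w (Ψ F) ≠ 0 → ∀ x,
      ∑ i, w (i, x) = Sum.elim (fun j => c j + ∑ l, v (l, j)) p x) ∧
    ∀ F, fr (k + 1 + r) g (Ψ F) = (m : ℂ) • (lab (k + 1) r v *
      rename (fun q : Fin (k + 1) × ι => (lo r q.1, q.2))
        (F : MvPolynomial (Fin (k + 1) × ι) ℂ))

/-- **(B3)** one lift. From `BordR`, `MinR` and the polarization of the heads. -/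
def OneR : Prop := ∀ (k r : ℕ) (ι η : Type) [Fintype ι] [Fintype η] [DecidableEq η]
  (g : η → Fin r) (c : ι → ℕ) (v : Fin r × ι → ℕ) (p : η → ℕ) (al : ℕ → ℕ)
  (tau : Fin (k + 1) → ℕ), 0 < r → ∑ j, c j = ∑ i, tau i →
  (∀ l, l + 1 < r → al (l + 1) ≤ al l) → tau 0 + ∑ q, v q ≤ al (r - 1) →
  (∀ l : Fin r, ∑ h ∈ Finset.univ.filter (fun h => g h = l), p h + ∑ j, v (l, j) = al l) →
  PsiR k r ι η g c v p al tau

/-- **(B4)** the lift of all tails and all labels of a family. From `OneR`. -/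
def LiftR : Prop := ∀ (k r : ℕ) (ι η : Type) [Fintype ι] [Fintype η] (g : η → Fin r)
  (s : ι → ℕ) (p : η → ℕ) (c : ι → ℕ) (ms : Fin r → ℕ) (al : ℕ → ℕ) (tau : Fin (k + 1) → ℕ)
  (VS : Finset (Fin r × ι → ℕ)), 0 < r →
  (∀ j h, s j < p h) → (∀ h h', p h = p h' → g h = g h') → ∑ j, c j = ∑ i, tau i →
  (∀ v ∈ VS, ∀ j, c j + ∑ l, v (l, j) = s j) → (∀ v ∈ VS, ∀ l, ∑ j, v (l, j) = ms l) →
  (∀ v ∈ VS, ∀ v' ∈ VS, ∀ j j', s j = s j' → j ≠ j' → ∃ l, v (l, j) ≠ v' (l, j')) →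
  (∀ l, l + 1 < r → al (l + 1) ≤ al l) → tau 0 + ∑ l, ms l ≤ al (r - 1) →
  (∀ l : Fin r, ∑ h, (if g h = l then p h else 0) + ms l = al l) →
  VS.card * Module.finrank ℂ (KK (k + 1) ι c tau) ≤
    Module.finrank ℂ (PK (k + 1 + r) (ι ⊕ η) (Sum.elim s p) (ap r al tau))

/-- **(B5)** the labels (pure counting): row `1` of the label of the letter `(i, ρ)` lies in
`[(i % m) X, (i % m) X + X)`, the rows `≥ 2` in `[0, X)`, row `0` is the rest; pigeonhole for the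
row sums. -/
def KeyR : Prop := ∀ (a q m X r : ℕ) (e : Fin a × Fin q → ℕ), 0 < a → 1 ≤ q → 1 ≤ m → 1 ≤ X →
  1 ≤ r → (∀ j, (m + r + 1) * X ≤ e j) →
  ∃ (ms : Fin (r + 1) → ℕ) (VS : Finset (Fin (r + 1) × (Fin a × Fin q) → ℕ)),
    (∀ v ∈ VS, ∀ j, ∑ l, v (l, j) = e j) ∧ (∀ v ∈ VS, ∀ l, ∑ j, v (l, j) = ms l) ∧
    (∀ v ∈ VS, ∀ v' ∈ VS, ∀ j j', (j.1 : ℕ) / m = (j'.1 : ℕ) / m → j.2 = j'.2 → j ≠ j' →
      ∃ l, v (l, j) ≠ v' (l, j')) ∧
    X ^ (r * (q * a)) ≤ (∑ j, e j + 1) ^ (r + 1) * VS.card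

/-- **(B6)** the heads (pure counting): disjoint windows of length `a / (2 r)` in `(a / 2, a]`. -/
def HeadR : Prop := ∀ (a r : ℕ) (H : Fin r → ℕ), 0 < r → 32 * r ≤ a → (∀ l, 8 * r * a ≤ H l) →
  ∃ (h : Fin r → ℕ) (p : (Σ l, Fin (h l)) → ℕ),
    (∀ x, a < 2 * p x) ∧ (∀ x, p x ≤ a) ∧ (∀ l, ∑ y : Fin (h l), p ⟨l, y⟩ = H l) ∧
    (∀ x y, p x = p y → x.1 = y.1) ∧ a * ∑ l, h l ≤ 2 * ∑ l, H l

/-- **(B7)** cutting the top row. -/
def CutR : Prop := ∀ (k a x : ℕ) (tau : Fin k → ℕ),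
  Module.finrank ℂ (HW (k + 1) (Fin a) (Fin.cons x tau)) ≤
    (x + 1) ^ a * Module.finrank ℂ (HW k (Fin a) tau)

/-- The tail: the rows below the block. -/
def tail {k r : ℕ} (lam : Fin (k + 1 + r + 2) → ℕ) : Fin (k + 1) → ℕ :=
  fun i => lam ⟨i + r + 2, by omega⟩

/-- **(B8)** upper bound, from `UpB` and `CutR`. -/
def UpR : Prop := ∀ (a b k r : ℕ) (lam : Fin (k + 1 + r + 2) → ℕ), ∑ i, lam i = a * b →
  plethMult a b (k + 1 + r + 2) lam ≤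
    (a + b).choose a * (a * b + 1) ^ (a * r) * Module.finrank ℂ (HW (k + 1) (Fin a) (tail lam))

/-- The bound of the total of the labels. -/
def Eb (a q m X r : ℕ) : ℕ := q * a * (1 + (m + r + 1) * X + q * (a / m) + q)

/-- **(B9)** lower bound, from `LiftR`, `KeyR`, `HeadR`, `RefB`, `LowerS`, `TransS`. The block has
the `r + 1` rows `lam 1, .., lam (r + 1)`. -/
def LowR : Prop := ∀ (a b k r q m X : ℕ) (lam : Fin (k + 1 + r + 2) → ℕ) (f : Fin a → ℕ),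
  Antitone lam → ∑ i, lam i = a * b → 0 < a → 1 ≤ r → 1 ≤ q → 1 ≤ m → 1 ≤ X →
  32 * (r + 1) ≤ a →
  (∀ i : Fin a, f i = (∑ i, tail lam i) / a +
    if (i : ℕ) < (∑ i, tail lam i) % a then 1 else 0) →
  2 * ((∑ i, tail lam i) / a / q + 1 + (m + r + 1) * X + q * (a / m) + q) ≤ a →
  lam ⟨r + 2, by omega⟩ + Eb a q m X r + 8 * (r + 1) * a ≤ lam ⟨r + 1, by omega⟩ →
  3 * q * a + 6 * ((∑ i, tl lam i) / a) + 6 ≤ b →
  X ^ (r * (q * a)) * Module.finrank ℂ (KK (k + 1) (Fin a) f (tail lam)) ≤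
    (Eb a q m X r + 1) ^ (r + 1) * plethMult b a (k + 1 + r + 2) lam

/-- **(B10)** the core in natural numbers, from `UpR`, `BalB`, `LowR`. -/
def CoreR : Prop := ∀ (a b k r q m X : ℕ) (lam : Fin (k + 1 + r + 2) → ℕ),
  Antitone lam → ∑ i, lam i = a * b → 6 ≤ a → b ≤ a ^ 2 → 1 ≤ r → 24 ≤ q → 1 ≤ m → 1 ≤ X →
  32 * (r + 1) ≤ a → a ≤ X ^ 2 →
  2 * ((∑ i, tail lam i) / a / q + 1 + (m + r + 1) * X + q * (a / m) + q) ≤ a →
  lam ⟨r + 2, by omega⟩ + Eb a q m X r + 8 * (r + 1) * a ≤ lam ⟨r + 1, by omega⟩ →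
  3 * q * a + 6 * ((∑ i, tl lam i) / a) + 6 ≤ b →
  plethMult a b (k + 1 + r + 2) lam ≤ plethMult b a (k + 1 + r + 2) lam

/-- **(B11)** the polylogarithmic form, from `CoreR`: `q = 24 + 16 t / a ^ 2`, `P` a natural bound
of `C₀ (1 + log a) ^ c₀`, `m = 4 P q ^ 2`, `X = a / (4 P q (m + r + 1))`. -/
def BlkP : Prop := ∀ (C₀ : ℝ) (c₀ : ℕ), 0 < C₀ → ∃ A : ℕ, ∀ (a b k r : ℕ)
  (lam : Fin (k + 1 + r + 2) → ℕ), Antitone lam → ∑ i, lam i = a * b → A ≤ a → 110 * a ≤ b →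
  (b : ℝ) ≤ C₀ * (1 + Real.log a) ^ c₀ * a → 1 ≤ r → (r : ℝ) ≤ C₀ * (1 + Real.log a) ^ c₀ →
  (a : ℝ) ^ 2 ≤ C₀ * (1 + Real.log a) ^ c₀ *
    ((lam ⟨r + 1, by omega⟩ : ℝ) - lam ⟨r + 2, by omega⟩) →
  200 * ∑ i, tl lam i ≤ a * b →
  plethMult a b (k + 1 + r + 2) lam ≤ plethMult b a (k + 1 + r + 2) lam

end Vale.Agent.P181.BL
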