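import Vale.Agent.P181.BL.Defs
import Vale.Agent.P181.PL.Defs

set_option autoImplicit false

/-!
# P181, BL: the final union (literals)
-/

open Finset

namespace Vale.Agent.P181.BL

open Vale.Agent.P181.H280 (plethMult)
open Vale.Agent.P181.PL (dn)

/-- `TS.H870.TailF` for `δ = 1`. -/
def TailS : Prop := ∃ c : ℕ, ∀ (a b n : ℕ) (lam : Fin n → ℕ), 2 * a ≤ b →
  (b : ℝ) * (1 + Real.log a) ^ c ≤
    ∑ i ∈ univ.filter (fun i : Fin n => (1 + Real.log a) ^ c ≤ ((i : ℕ) : ℝ)), (lam i : ℝ) →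
  plethMult a b n lam ≤ plethMult b a n lam

/-- **(B12)** the union, from `BlkP`, `TL.TwoLongPA`, `TailS`, `PL.PolyS`, `LinS` and
`FewBelowRowTwo`: `b ≥ C a`, all shapes with at most `a b / 200` boxes below row one, except those
with `w > a ^ 2 / polylog` and `b - a + 1 < λ_3 + λ_4 + .. < a polylog`. -/
def LinAll : Prop := ∃ (C : ℝ) (c : ℕ), 0 < C ∧ ∀ a b : ℕ, C * a ≤ b →
  ∀ (n : ℕ) (lam : Fin n → ℕ), 200 * dn lam 1 ≤ a * b →
  (C * (1 + Real.log a) ^ c * dn lam 1 ≤ (a : ℝ) ^ 2 ∨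
    C * (1 + Real.log a) ^ c * a ≤ (dn lam 2 : ℝ) ∨ a + dn lam 2 ≤ b + 1) →
  plethMult a b n lam ≤ plethMult b a n lam

end Vale.Agent.P181.BL
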